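import Vale.Agent.P253.MathlibUsed

open scoped Manifold ContDiff Topology Bundle
open Bundle Complex

noncomputable section

namespace Vale.Agent.P253.Mfd

variable {E : Type*} [NormedAddCommGroup E] [NormedSpace ℂ E]
  {M : Type*} [MetricSpace M] [ChartedSpace E M]

section metric

variable [RiemannianBundle (fun x : M => TangentSpace 𝓘(ℝ, E) x)]

/-- The Riemannian metric `g` of `M` in the chart `e`: `g_z(v, w)` for `z` in the target. -/
def chartMetric (e : OpenPartialHomeomorph M E) (z v w : E) : ℝ :=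
  inner ℝ (mfderiv 𝓘(ℝ, E) 𝓘(ℝ, E) e.symm z v : TangentSpace 𝓘(ℝ, E) (e.symm z))
    (mfderiv 𝓘(ℝ, E) 𝓘(ℝ, E) e.symm z w : TangentSpace 𝓘(ℝ, E) (e.symm z))

/-- `Γ` is the Christoffel symbol (Levi-Civita connection) of `g` at the point `z` of the
chart `e` (Koszul formula). -/
def IsChristoffel (e : OpenPartialHomeomorph M E) (z : E) (Γ : E → E → E) : Prop :=
  ∀ u v w : E, 2 * chartMetric e z (Γ u v) w =
    fderiv ℝ (fun y => chartMetric e y v w) z u + fderiv ℝ (fun y => chartMetric e y u w) z v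
      - fderiv ℝ (fun y => chartMetric e y u v) z w

/-- The curvature `Rm(a, b, b, a)` (numerator of the sectional curvature of the plane spanned
by `a, b`) at the point `z` of the chart `e`. -/
def sectNum (e : OpenPartialHomeomorph M E) (z : E) (Γ : E → E → E) (a b : E) : ℝ :=
  -(fderiv ℝ (fun y => fderiv ℝ (fun x => chartMetric e x b b) y a) z a
      + fderiv ℝ (fun y => fderiv ℝ (fun x => chartMetric e x a a) y b) z b
      - 2 * fderiv ℝ (fun y => fderiv ℝ (fun x => chartMetric e x a b) y a) z b) / 2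
    + chartMetric e z (Γ a b) (Γ a b) - chartMetric e z (Γ a a) (Γ b b)

variable (E M) in
/-- `g` is a Kähler metric: in every holomorphic chart the complex structure is orthogonal
and parallel for the Levi-Civita connection. -/
def IsKahler : Prop :=
  ∀ e ∈ IsManifold.maximalAtlas 𝓘(ℂ, E) 1 M, ∀ z ∈ e.target,
    (∀ v w, chartMetric e z (I • v) (I • w) = chartMetric e z v w) ∧
    ∃ Γ, IsChristoffel e z Γ ∧ ∀ u v, Γ u (I • v) = I • Γ u v

variable (E) in
/-- nonnegative holomorphic bisectional curvature at the point `x` -/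
def NonnegBisectionalAt (x : M) : Prop :=
  ∀ e ∈ IsManifold.maximalAtlas 𝓘(ℂ, E) 1 M, x ∈ e.source →
    ∃ Γ, IsChristoffel e (e x) Γ ∧
      ∀ u v, 0 ≤ sectNum e (e x) Γ u v + sectNum e (e x) Γ u (I • v)

variable (E) in
/-- positive holomorphic bisectional curvature at the point `x` -/
def PosBisectionalAt (x : M) : Prop :=
  ∀ e ∈ IsManifold.maximalAtlas 𝓘(ℂ, E) 1 M, x ∈ e.source →
    ∃ Γ, IsChristoffel e (e x) Γ ∧
      ∀ u v, u ≠ 0 → v ≠ 0 → 0 < sectNum e (e x) Γ u v + sectNum e (e x) Γ u (I • v)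

variable (E) in
/-- `ρ` is a smooth one-parameter group of holomorphic isometries of `M` (the flow of a
holomorphic Killing field). -/
structure IsHolIsomFlow (ρ : ℝ → M → M) : Prop where
  zero : ∀ x, ρ 0 x = x
  add : ∀ s t x, ρ (s + t) x = ρ s (ρ t x)
  smooth : ContMDiff (𝓘(ℝ, ℝ).prod 𝓘(ℝ, E)) 𝓘(ℝ, E) ∞ (fun q : ℝ × M => ρ q.1 q.2)
  holo : ∀ t, MDifferentiable 𝓘(ℂ, E) 𝓘(ℂ, E) (ρ t)
  isom : ∀ t x (v w : TangentSpace 𝓘(ℝ, E) x),
    inner ℝ (mfderiv 𝓘(ℝ, E) 𝓘(ℝ, E) (ρ t) x v) (mfderiv 𝓘(ℝ, E) 𝓘(ℝ, E) (ρ t) x w)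
      = inner ℝ v w

end metric

variable (E) in
/-- `p` is a fixed point of `ρ` at which all weights are positive: in a suitable complex basis
of `T_p M` the differential of `ρ t` at `p` is `diag (exp (i m_1 t), ..., exp (i m_n t))` with
real numbers `m_j > 0`. -/
def IsPosFixedPoint (ρ : ℝ → M → M) (p : M) : Prop :=
  (∀ t, ρ t p = p) ∧
  ∃ (b : Module.Basis (Fin (Module.finrank ℂ E)) ℂ E) (m : Fin (Module.finrank ℂ E) → ℝ),
    (∀ j, 0 < m j) ∧
    ∀ t j, mfderiv 𝓘(ℂ, E) 𝓘(ℂ, E) (ρ t) p (b j) = exp (t * m j * I) • b j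

end Vale.Agent.P253.Mfd
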